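import Mathlib

/-!
# Volume bounds for the upper estimate on `χ` (P087, block 4a)
-/

open MeasureTheory Finset
open scoped ENNReal

namespace Vale.Agent.P087

private lemma integral_row (m : ℕ) {a : ℝ} (ha : 0 < a) :
    Integrable (fun r : Fin m → ℝ => ∏ j, Real.exp (-a * (r j) ^ 2)) ∧
      ∫ r : Fin m → ℝ, ∏ j, Real.exp (-a * (r j) ^ 2) = Real.sqrt (Real.pi / a) ^ m := by
  refine ⟨Integrable.fintype_prod fun _ => integrable_exp_neg_mul_sq ha, ?_⟩
  rw [integral_fintype_prod_volume_eq_pow (fun t : ℝ => Real.exp (-a * t ^ 2)), integral_gaussian,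
    Fintype.card_fin]

private lemma integral_array (m : ℕ) {a : ℝ} (ha : 0 < a) :
    Integrable (fun y : Fin m → Fin m → ℝ => ∏ i, ∏ j, Real.exp (-a * (y i j) ^ 2)) ∧
      ∫ y : Fin m → Fin m → ℝ, ∏ i, ∏ j, Real.exp (-a * (y i j) ^ 2) =
        Real.sqrt (Real.pi / a) ^ (m * m) := by
  set F : (Fin m → ℝ) → ℝ := fun r => ∏ j, Real.exp (-a * (r j) ^ 2) with hF
  obtain ⟨h1, h2⟩ := integral_row m ha
  rw [← hF] at h1
  change ∫ r, F r = _ at h2
  change Integrable (fun y : Fin m → Fin m → ℝ => ∏ i, F (y i)) ∧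
    ∫ y : Fin m → Fin m → ℝ, ∏ i, F (y i) = _
  refine ⟨Integrable.fintype_prod fun _ => h1, ?_⟩
  rw [integral_fintype_prod_volume_eq_pow F, h2, Fintype.card_fin, ← pow_mul]

/-- the volume of a Euclidean ball in `k × k` arrays, by Gaussian domination -/
theorem volume_ball_le (k : ℕ) (hk : 0 < k) (c : ℝ) (hc : 0 < c) :
    volume {y : Fin k → Fin k → ℝ | ∑ i, ∑ j, (y i j) ^ 2 ≤ k * c} ≤
      ENNReal.ofReal (Real.exp ((k : ℝ) ^ 2 / 2) * (2 * Real.pi * c / k) ^ ((k : ℝ) ^ 2 / 2)) := by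
  have hkR : (0 : ℝ) < k := by exact_mod_cast hk
  set a : ℝ := k / (2 * c) with ha
  have ha0 : 0 < a := by positivity
  set f : (Fin k → Fin k → ℝ) → ℝ := fun y => ∏ i, ∏ j, Real.exp (-a * (y i j) ^ 2) with hf
  obtain ⟨hfint, hfval⟩ := integral_array k ha0
  set E := Real.exp ((k : ℝ) ^ 2 / 2)
  have hmeas : MeasurableSet {y : Fin k → Fin k → ℝ | ∑ i, ∑ j, (y i j) ^ 2 ≤ k * c} := by
    refine measurableSet_le ?_ measurable_const
    fun_prop
  have hdom : ∀ y ∈ {y : Fin k → Fin k → ℝ | ∑ i, ∑ j, (y i j) ^ 2 ≤ k * c},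
      (1 : ℝ≥0∞) ≤ ENNReal.ofReal (E * f y) := by
    intro y hy
    rw [← ENNReal.ofReal_one]
    refine ENNReal.ofReal_le_ofReal ?_
    simp only [hf, E, ← Real.exp_sum, ← Real.exp_add, ← Finset.mul_sum]
    refine Real.one_le_exp ?_
    have hy' : ∑ i, ∑ j, (y i j) ^ 2 ≤ (k : ℝ) * c := hy
    have h := mul_le_mul_of_nonneg_left hy' ha0.le
    have e : a * ((k : ℝ) * c) = (k : ℝ) ^ 2 / 2 := by rw [ha]; field_simp
    linarith
  calc volume {y : Fin k → Fin k → ℝ | ∑ i, ∑ j, (y i j) ^ 2 ≤ k * c}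
      = ∫⁻ _ in {y : Fin k → Fin k → ℝ | ∑ i, ∑ j, (y i j) ^ 2 ≤ k * c}, 1 :=
        (setLIntegral_one _).symm
    _ ≤ ∫⁻ y in {y : Fin k → Fin k → ℝ | ∑ i, ∑ j, (y i j) ^ 2 ≤ k * c},
          ENNReal.ofReal (E * f y) := setLIntegral_mono' hmeas hdom
    _ ≤ ∫⁻ y, ENNReal.ofReal (E * f y) := setLIntegral_le_lintegral _ _
    _ = ENNReal.ofReal (∫ y, E * f y) :=
        (ofReal_integral_eq_lintegral_ofReal (hfint.const_mul E)
          (Filter.Eventually.of_forall fun y => by positivity)).symm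
    _ = _ := by
      rw [integral_const_mul, hfval, Real.sqrt_eq_rpow, ← Real.rpow_natCast,
        ← Real.rpow_mul (by positivity)]
      congr 3
      · rw [ha]; field_simp
      · push_cast; ring

/-- a shear in the coordinates of `big`, driven by the other coordinates, preserves boxes' volume -/
theorem volume_shear_le {n k : ℕ} (big : Finset (Fin n))
    (h : (Fin n → Fin k → Fin k → ℝ) → Fin n → Fin k → Fin k → ℝ) (hm : Measurable h)
    (hdep : ∀ x y, (∀ j ∉ big, x j = y j) → h x = h y)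
    (hzero : ∀ x, ∀ j ∉ big, h x j = 0)
    (S : Fin n → Set (Fin k → Fin k → ℝ)) (hS : ∀ j, MeasurableSet (S j)) :
    volume {x | ∀ j, x j - h x j ∈ S j} ≤ ∏ j, volume (S j) := by
  classical
  set p : Fin n → Prop := fun j => j ∈ big ∧ True with hp
  set e := MeasurableEquiv.piEquivPiSubtypeProd (fun _ : Fin n => Fin k → Fin k → ℝ) p
  have he : MeasurePreserving e := volume_preserving_piEquivPiSubtypeProd _ p
  set A : Set (Fin n → Fin k → Fin k → ℝ) := {x | ∀ j, x j - h x j ∈ S j} with hA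
  have hAm : MeasurableSet A := by
    rw [hA, Set.setOf_forall]
    exact MeasurableSet.iInter fun j =>
      ((measurable_pi_apply j).sub ((measurable_pi_apply j).comp hm)) (hS j)
  have h1 : volume A = volume (e.symm ⁻¹' A) :=
    ((he.symm e).measure_preimage hAm.nullMeasurableSet).symm
  rw [h1]
  rw [show (volume : Measure ((∀ _ : {j // p j}, Fin k → Fin k → ℝ) ×
      (∀ _ : {j // ¬ p j}, Fin k → Fin k → ℝ))) = (volume : Measure _).prod volume from rfl,
    Measure.prod_apply_symm (e.symm.measurable hAm)]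
  set Sb : Set (∀ _ : {j // p j}, Fin k → Fin k → ℝ) := Set.univ.pi fun j => S j.1
  set Ss : Set (∀ _ : {j // ¬ p j}, Fin k → Fin k → ℝ) := Set.univ.pi fun j => S j.1
  have hSs : MeasurableSet Ss := MeasurableSet.univ_pi fun j => hS j.1
  haveI : (volume : Measure (Fin k → Fin k → ℝ)).IsAddLeftInvariant := inferInstance
  haveI : (volume : Measure (∀ _ : {j // p j}, Fin k → Fin k → ℝ)).IsAddLeftInvariant :=
    Measure.pi.isAddLeftInvariant (fun _ : {j // p j} => (volume : Measure (Fin k → Fin k → ℝ)))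
  have hsec : ∀ b, volume ((fun a => (a, b)) ⁻¹' (e.symm ⁻¹' A)) ≤
      Ss.indicator (fun _ => volume Sb) b := by
    intro b
    set w : ∀ _ : {j // p j}, Fin k → Fin k → ℝ := fun j => h (e.symm (fun _ => 0, b)) j.1
    have hkey : ∀ a, e.symm (a, b) ∈ A → b ∈ Ss ∧ a + -w ∈ Sb := by
      intro a ha
      have heq : h (e.symm (a, b)) = h (e.symm (fun _ => 0, b)) := hdep _ _ fun j hj => by
        have hj' : ¬ p j := fun hq => hj hq.1
        simp [e, MeasurableEquiv.piEquivPiSubtypeProd, Equiv.piEquivPiSubtypeProd, hj']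
      refine ⟨fun j _ => ?_, fun j _ => ?_⟩
      · have h0 := ha j.1
        rw [hzero _ _ (fun hq => j.2 ⟨hq, trivial⟩), sub_zero] at h0
        simpa [e, MeasurableEquiv.piEquivPiSubtypeProd, Equiv.piEquivPiSubtypeProd, j.2] using h0
      · have h0 := ha j.1
        rw [heq] at h0
        simpa [e, w, MeasurableEquiv.piEquivPiSubtypeProd, Equiv.piEquivPiSubtypeProd, j.2,
          sub_eq_add_neg] using h0
    by_cases hb : b ∈ Ss
    · rw [Set.indicator_of_mem hb]
      calc volume ((fun a => (a, b)) ⁻¹' (e.symm ⁻¹' A))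
          ≤ volume ((fun a => a + -w) ⁻¹' Sb) := measure_mono fun a ha => (hkey a ha).2
        _ = volume Sb := measure_preimage_add_right _ _ _
    · rw [Set.indicator_of_notMem hb, nonpos_iff_eq_zero]
      refine (congrArg _ ?_).trans measure_empty
      exact Set.eq_empty_of_forall_notMem fun a ha => hb (hkey a ha).1
  refine (lintegral_mono hsec).trans_eq ?_
  rw [lintegral_indicator_const hSs, volume_pi_pi, volume_pi_pi]
  exact Fintype.prod_subtype_mul_prod_subtype p fun j => volume (S j)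

end Vale.Agent.P087
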