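import Vale.Agent.P087.Pins
import Vale.Agent.P087.DecodePoly

/-!
# Coordinates of self-adjoint matrices and evaluation of polynomials (P087, Block 4a)
-/

open scoped InnerProductSpace ENNReal
open MeasureTheory

namespace Vale.Agent.P087.ChiUpper

variable {k : ℕ}

/-- the sum of the squares of the coordinates -/
noncomputable def sqSum (z : Fin k → Fin k → ℝ) : ℝ := ∑ a, ∑ b, z a b ^ 2

lemma hermOf_sub (x y : Fin k → Fin k → ℝ) : hermOf (x - y) = hermOf x - hermOf y := by
  ext a b
  simp only [hermOf, Matrix.of_apply, Matrix.sub_apply, Pi.sub_apply]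
  split_ifs <;> push_cast <;> ring

lemma sqrtTwo_mul : (Real.sqrt 2 : ℂ) * (Real.sqrt 2 : ℂ) = 2 := by
  rw [← Complex.ofReal_mul, Real.mul_self_sqrt zero_le_two]; norm_num

lemma sqrtTwo_ne : (Real.sqrt 2 : ℂ) ≠ 0 := by
  simp [Real.sqrt_ne_zero']

lemma hermOf_isHermitian (x : Fin k → Fin k → ℝ) : (hermOf x).IsHermitian := by
  ext a b
  simp only [hermOf, Matrix.conjTranspose_apply, Matrix.of_apply]
  rcases lt_trichotomy a b with h | h | h
  · simp only [if_neg h.ne', if_neg h.not_gt, if_neg h.ne, if_pos h]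
    simp [Complex.conj_ofReal, sub_eq_add_neg]
  · subst h; simp [Complex.conj_ofReal]
  · simp only [if_neg h.ne, if_pos h, if_neg h.ne', if_neg h.not_gt]
    simp [Complex.conj_ofReal, sub_eq_add_neg]

lemma hermOf_mul_swap (x : Fin k → Fin k → ℝ) (a b : Fin k) :
    hermOf x a b * hermOf x b a = ((x a b : ℂ) ^ 2 + (x b a : ℂ) ^ 2) / 2 := by
  simp only [hermOf, Matrix.of_apply]
  rcases lt_trichotomy a b with h | h | h
  · simp only [if_neg h.ne, if_pos h, if_neg h.ne', if_neg h.not_gt]
    rw [div_mul_div_comm, sqrtTwo_mul]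
    congr 1
    linear_combination -(x b a : ℂ) ^ 2 * Complex.I_sq
  · subst h; simp only [if_true]; ring
  · simp only [if_neg h.ne', if_neg h.not_gt, if_neg h.ne, if_pos h]
    rw [div_mul_div_comm, sqrtTwo_mul]
    congr 1
    linear_combination -(x a b : ℂ) ^ 2 * Complex.I_sq

lemma trace_hermOf_sq (x : Fin k → Fin k → ℝ) :
    (hermOf x * hermOf x).trace = (sqSum x : ℂ) := by
  have h : ∑ a, ∑ b, (x b a : ℂ) ^ 2 = ∑ a, ∑ b, (x a b : ℂ) ^ 2 := Finset.sum_comm
  simp only [Matrix.trace, Matrix.diag, Matrix.mul_apply, hermOf_mul_swap, sqSum]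
  simp only [add_div, Finset.sum_add_distrib, ← Finset.sum_div, h]
  push_cast
  ring

/-- the coordinates of a matrix, inverse to `hermOf` on self-adjoint matrices -/
noncomputable def coordOf (A : Matrix (Fin k) (Fin k) ℂ) (a b : Fin k) : ℝ :=
  if a = b then (A a a).re
  else if a < b then Real.sqrt 2 * (A a b).re else Real.sqrt 2 * (A b a).im

lemma hermOf_coordOf {A : Matrix (Fin k) (Fin k) ℂ} (hA : A.IsHermitian) :
    hermOf (coordOf A) = A := by
  ext a b
  rw [hermOf, Matrix.of_apply]
  rcases lt_trichotomy a b with h | h | h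
  · simp only [coordOf, if_neg h.ne, if_pos h, if_neg h.ne', if_neg h.not_gt]
    rw [div_eq_iff sqrtTwo_ne]
    push_cast
    linear_combination (Real.sqrt 2 : ℂ) * Complex.re_add_im (A a b)
  · subst h
    simp only [coordOf, if_true]
    exact hA.coe_re_apply_self a
  · simp only [coordOf, if_neg h.ne, if_pos h, if_neg h.ne', if_neg h.not_gt]
    rw [div_eq_iff sqrtTwo_ne]
    have h2 := hA.apply a b
    rw [← h2]
    apply Complex.ext <;> simp <;> ring

lemma continuous_coordOf : Continuous (coordOf (k := k)) := by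
  refine continuous_pi fun a => continuous_pi fun b => ?_
  unfold coordOf
  split_ifs <;> fun_prop

lemma continuous_hermOf : Continuous (hermOf (k := k)) := by
  refine continuous_matrix fun a b => ?_
  simp only [hermOf, Matrix.of_apply]
  split_ifs <;> fun_prop

lemma continuous_wordMat {ι α : Type*} [TopologicalSpace α]
    {F : α → ι → Matrix (Fin k) (Fin k) ℂ} (hF : ∀ j, Continuous fun x => F x j) (w : List ι) :
    Continuous fun x => wordMat (F x) w := by
  induction w with
  | nil => simpa [wordMat] using continuous_const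
  | cons a w ih =>
    simp only [wordMat, List.map_cons, List.prod_cons]
    exact (hF a).matrix_mul ih

lemma continuous_polyMat {ι α : Type*} [TopologicalSpace α]
    {F : α → ι → Matrix (Fin k) (Fin k) ℂ} (hF : ∀ j, Continuous fun x => F x j)
    (p : List (ℂ × List ι)) : Continuous fun x => polyMat (F x) p := by
  induction p with
  | nil => simpa [polyMat] using continuous_const
  | cons a p ih =>
    simp only [polyMat, List.map_cons, List.sum_cons]
    exact ((continuous_wordMat hF a.2).const_smul a.1).add ih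

lemma polyMat_congr {ι : Type*} {A B : ι → Matrix (Fin k) (Fin k) ℂ} {p : List (ℂ × List ι)}
    (h : ∀ cw ∈ p, ∀ j ∈ cw.2, A j = B j) : polyMat A p = polyMat B p := by
  refine congrArg List.sum (List.map_congr_left fun cw hcw => ?_)
  rw [wordMat, wordMat, List.map_congr_left (h cw hcw)]

lemma pev_neg {ι R : Type*} [Ring R] [Algebra ℂ R] (X : ι → R) (p : List (ℂ × List ι)) :
    Decode.pev X (p.map fun cw => (-cw.1, cw.2)) = -Decode.pev X p := by
  induction p with
  | nil => simp [Decode.pev]
  | cons a p ih => rw [List.map_cons, Decode.pev_cons, Decode.pev_cons, ih, neg_smul, neg_add]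

variable {H : Type*} [NormedAddCommGroup H] [InnerProductSpace ℂ H] [CompleteSpace H] {n : ℕ}

lemma ntr_polyMat_sub_le (Ω : H) (X : Fin n → H →L[ℂ] H)
    (A : Fin n → Matrix (Fin k) (Fin k) ℂ) (ε : ℝ) (r : List (ℂ × List (Fin n)))
    (h : ∀ cw ∈ r, ‖ntr (wordMat A cw.2) - tau Ω (wordOp X cw.2)‖ ≤ ε) :
    ‖ntr (polyMat A r) - tau Ω (polyOp X r)‖ ≤ (r.map fun cw => ‖cw.1‖).sum * ε := by
  induction r with
  | nil => simp [polyMat, polyOp, ntr, tau]
  | cons a r ih =>
    have e : ntr (polyMat A (a :: r)) - tau Ω (polyOp X (a :: r)) =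
        a.1 * (ntr (wordMat A a.2) - tau Ω (wordOp X a.2))
          + (ntr (polyMat A r) - tau Ω (polyOp X r)) := by
      simp [polyMat, polyOp, ntr, tau, inner_add_right, inner_smul_right, Matrix.trace_add,
        Matrix.trace_smul]
      ring
    rw [e, List.map_cons, List.sum_cons, add_mul]
    refine (norm_add_le _ _).trans (add_le_add ?_ (ih fun cw hcw => h cw (.tail _ hcw)))
    rw [norm_mul]
    exact mul_le_mul_of_nonneg_left (h a (List.mem_cons_self ..)) (norm_nonneg _)

lemma re_tau_sq (Ω : H) {Y : H →L[ℂ] H} (hY : IsSelfAdjoint Y) :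
    (tau Ω (Y * Y)).re = ‖Y Ω‖ ^ 2 := by
  rw [tau, mul_apply_eq_comp, ← ContinuousLinearMap.adjoint_inner_left,
    ← ContinuousLinearMap.star_eq_adjoint, hY.star_eq]
  exact inner_self_eq_norm_sq (𝕜 := ℂ) (Y Ω)

end Vale.Agent.P087.ChiUpper
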