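import Vale.Agent.P087.Basic
import Vale.Agent.P087.ChiLowerPin

/-!
# Block 4a, elementary part: orthonormal coordinates of self-adjoint matrices (P087)
-/

open MeasureTheory

namespace Vale.Agent.P087

namespace ChiUpper

open ChiLower (coordOf hermOf_coordOf)

variable {k : ℕ}

lemma hermOf_isHermitian (x : Fin k → Fin k → ℝ) : (hermOf x).IsHermitian := by
  ext i j
  rw [Matrix.conjTranspose_apply]
  rcases lt_trichotomy i j with h | h | h
  · simp [hermOf, h, h.ne, h.ne', h.not_gt, sub_eq_add_neg]
  · subst h
    simp [hermOf]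
  · simp [hermOf, h, h.ne, h.ne', h.not_gt, sub_eq_add_neg]

lemma normSq_hermOf (x : Fin k → Fin k → ℝ) (i j : Fin k) :
    Complex.normSq (hermOf x i j) = (x i j ^ 2 + x j i ^ 2) / 2 := by
  rcases lt_trichotomy i j with h | h | h
  · simp [hermOf, h, h.ne, Complex.normSq_apply, ← sq]
  · subst h
    simp [hermOf, Complex.normSq_ofReal]
    ring
  · simp [hermOf, h.ne', h.not_gt, Complex.normSq_apply, ← sq]
    ring

lemma re_ntr_sq (x : Fin k → Fin k → ℝ) :
    (ntr (hermOf x * hermOf x)).re = (∑ i, ∑ j, (x i j) ^ 2) / k := by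
  have h : (hermOf x * hermOf x).trace
      = ((∑ i, ∑ j, Complex.normSq (hermOf x i j) : ℝ) : ℂ) := by
    push_cast
    simp only [Matrix.trace, Matrix.diag_apply, Matrix.mul_apply]
    refine Finset.sum_congr rfl fun i _ => Finset.sum_congr rfl fun j _ => ?_
    rw [← (hermOf_isHermitian x).apply j i, Complex.normSq_eq_conj_mul_self, mul_comm]
    rfl
  have h2 : ∑ i, ∑ j, Complex.normSq (hermOf x i j) = ∑ i, ∑ j, (x i j) ^ 2 := by
    simp only [normSq_hermOf, ← Finset.sum_div, Finset.sum_add_distrib]
    rw [Finset.sum_comm (f := fun i j => x j i ^ 2)]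
    ring
  rw [ntr, h, h2, ← Complex.ofReal_natCast, ← Complex.ofReal_inv, ← Complex.ofReal_mul,
    Complex.ofReal_re, div_eq_inv_mul]

lemma re_ntr_sq_coordOf {A : Matrix (Fin k) (Fin k) ℂ} (hA : A.IsHermitian) :
    (ntr (A * A)).re = (∑ i, ∑ j, (coordOf A i j) ^ 2) / k := by
  rw [← re_ntr_sq, hermOf_coordOf hA]

lemma coordOf_hermOf (x : Fin k → Fin k → ℝ) : coordOf (hermOf x) = x := by
  have h2 : Real.sqrt 2 ≠ 0 := by simp
  funext i j
  rcases lt_trichotomy i j with h | h | h
  · simp [coordOf, hermOf, h, h.ne]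
    field_simp
  · subst h
    simp [coordOf, hermOf]
  · simp [coordOf, hermOf, h, h.ne', h.not_gt, h.ne]
    field_simp

lemma coordOf_sub (A B : Matrix (Fin k) (Fin k) ℂ) :
    coordOf (A - B) = fun i j => coordOf A i j - coordOf B i j := by
  funext i j
  simp only [coordOf, Matrix.sub_apply, Complex.sub_re, Complex.sub_im]
  split_ifs <;> ring

lemma hermOf_sub (x y : Fin k → Fin k → ℝ) :
    hermOf (fun i j => x i j - y i j) = hermOf x - hermOf y := by
  ext i j
  simp only [hermOf, Matrix.of_apply, Matrix.sub_apply]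
  split_ifs <;> push_cast <;> ring

lemma hermOf_sub_coordOf {A : Matrix (Fin k) (Fin k) ℂ} (hA : A.IsHermitian)
    (x : Fin k → Fin k → ℝ) :
    hermOf (fun i j => x i j - coordOf A i j) = hermOf x - A := by
  rw [hermOf_sub, hermOf_coordOf hA]

lemma continuous_hermOf : Continuous (hermOf : (Fin k → Fin k → ℝ) → Matrix (Fin k) (Fin k) ℂ) := by
  refine continuous_matrix fun i j => ?_
  simp only [hermOf, Matrix.of_apply]
  split_ifs <;> fun_prop

lemma continuous_coordOf :
    Continuous (coordOf : Matrix (Fin k) (Fin k) ℂ → Fin k → Fin k → ℝ) := by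
  refine continuous_pi fun i => continuous_pi fun j => ?_
  simp only [coordOf]
  have he : ∀ a b : Fin k, Continuous fun A : Matrix (Fin k) (Fin k) ℂ => A a b :=
    fun a b => continuous_id.matrix_elem a b
  split_ifs
  · exact Complex.continuous_re.comp (he i i)
  · exact continuous_const.mul (Complex.continuous_re.comp (he i j))
  · exact continuous_const.mul (Complex.continuous_im.comp (he j i))

variable {n : ℕ}

lemma continuous_wordMat_hermOf (w : List (Fin n)) :
    Continuous fun x : Fin n → Fin k → Fin k → ℝ => wordMat (fun j => hermOf (x j)) w := by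
  induction w with
  | nil => simpa [wordMat] using continuous_const
  | cons a w ih =>
    have : (fun x : Fin n → Fin k → Fin k → ℝ => wordMat (fun j => hermOf (x j)) (a :: w))
        = fun x => hermOf (x a) * wordMat (fun j => hermOf (x j)) w := by
      funext x
      simp [wordMat]
    rw [this]
    exact (continuous_hermOf.comp (continuous_apply a)).matrix_mul ih

lemma continuous_polyMat_hermOf (p : List (ℂ × List (Fin n))) :
    Continuous fun x : Fin n → Fin k → Fin k → ℝ => polyMat (fun j => hermOf (x j)) p := by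
  induction p with
  | nil => simpa [polyMat] using continuous_const
  | cons a p ih =>
    have : (fun x : Fin n → Fin k → Fin k → ℝ => polyMat (fun j => hermOf (x j)) (a :: p))
        = fun x => a.1 • wordMat (fun j => hermOf (x j)) a.2 + polyMat (fun j => hermOf (x j)) p := by
      funext x
      simp [polyMat]
    rw [this]
    exact ((continuous_wordMat_hermOf a.2).const_smul a.1).add ih

lemma continuous_coordOf_polyMat (p : List (ℂ × List (Fin n))) :
    Continuous fun x : Fin n → Fin k → Fin k → ℝ =>
      coordOf (polyMat (fun j => hermOf (x j)) p) :=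
  continuous_coordOf.comp (continuous_polyMat_hermOf p)

lemma measurable_coordOf_polyMat (p : List (ℂ × List (Fin n))) :
    Measurable fun x : Fin n → Fin k → Fin k → ℝ =>
      coordOf (polyMat (fun j => hermOf (x j)) p) :=
  (continuous_coordOf_polyMat p).measurable

lemma wordMat_congr {A B : Fin n → Matrix (Fin k) (Fin k) ℂ} {w : List (Fin n)}
    (h : ∀ j ∈ w, A j = B j) : wordMat A w = wordMat B w := by
  unfold wordMat
  rw [List.map_congr_left h]

lemma polyMat_congr {A B : Fin n → Matrix (Fin k) (Fin k) ℂ} {p : List (ℂ × List (Fin n))}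
    (h : ∀ cw ∈ p, ∀ j ∈ cw.2, A j = B j) : polyMat A p = polyMat B p := by
  unfold polyMat
  rw [List.map_congr_left fun cw hcw => by rw [wordMat_congr (h cw hcw)]]

end ChiUpper

end Vale.Agent.P087
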