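import Vale.Agent.P087.ChiUpper.Coord

/-!
# Volume of a ball and measure preservation of shears (P087, Block 4a)
-/

open scoped ENNReal
open MeasureTheory

namespace Vale.Agent.P087.ChiUpper

variable {k : ℕ}

lemma measurableSet_ball (b : ℝ) : MeasurableSet {z : Fin k → Fin k → ℝ | sqSum z ≤ b} := by
  refine measurableSet_le (Continuous.measurable ?_) measurable_const
  unfold sqSum
  fun_prop

lemma volume_ball_le {a : ℝ} (ha : 0 < a) (b : ℝ) :
    volume {z : Fin k → Fin k → ℝ | sqSum z ≤ b}
      ≤ ENNReal.ofReal (Real.exp (a * b) * √(Real.pi / a) ^ (k * k)) := by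
  set F := fun z : Fin k → Fin k → ℝ => ∏ p, ∏ q, Real.exp (-a * z p q ^ 2) with hF
  have hi : Integrable F := Integrable.fintype_prod (f := fun _ (y : Fin k → ℝ) =>
    ∏ q, Real.exp (-a * y q ^ 2)) fun _ =>
      Integrable.fintype_prod (f := fun _ (t : ℝ) => Real.exp (-a * t ^ 2)) fun _ =>
        integrable_exp_neg_mul_sq ha
  have hI : ∫ z, F z = √(Real.pi / a) ^ (k * k) := by
    rw [hF, integral_fintype_prod_volume_eq_pow (fun y : Fin k → ℝ =>
        ∏ q, Real.exp (-a * y q ^ 2)),
      integral_fintype_prod_volume_eq_pow (fun t : ℝ => Real.exp (-a * t ^ 2)),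
      integral_gaussian, Fintype.card_fin, pow_mul]
  have hnn : ∀ z, 0 ≤ Real.exp (a * b) * F z := fun z => mul_nonneg (Real.exp_pos _).le
    (Finset.prod_nonneg fun _ _ => Finset.prod_nonneg fun _ _ => (Real.exp_pos _).le)
  rw [← hI, ← integral_const_mul, ofReal_integral_eq_lintegral_ofReal (hi.const_mul _)
    (Filter.Eventually.of_forall hnn), ← lintegral_indicator_one (measurableSet_ball b)]
  refine lintegral_mono fun z => ?_
  by_cases hz : z ∈ {z : Fin k → Fin k → ℝ | sqSum z ≤ b}
  swap
  · rw [Set.indicator_of_notMem hz]; exact zero_le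
  rw [Set.indicator_of_mem hz, Pi.one_apply, ENNReal.one_le_ofReal, hF]
  simp only [← Real.exp_sum, ← Real.exp_add, ← Finset.mul_sum]
  refine Real.one_le_exp ?_
  have hz : sqSum z ≤ b := hz
  unfold sqSum at hz
  nlinarith

lemma measurePreserving_shear {n : ℕ} (big : Finset (Fin n))
    (f : Fin n → (Fin n → Fin k → Fin k → ℝ) → Fin k → Fin k → ℝ) (hf : ∀ i, Continuous (f i))
    (hdep : ∀ i ∈ big, ∀ x y, (∀ j ∉ big, x j = y j) → f i x = f i y) :
    MeasurePreserving (fun (x : Fin n → Fin k → Fin k → ℝ) i =>
      if i ∈ big then x i - f i x else x i) volume volume := by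
  classical
  have : (volume : Measure (Fin k → ℝ)).IsAddHaarMeasure := Measure.pi.isAddHaarMeasure _
  have : (volume : Measure (Fin k → Fin k → ℝ)).IsAddHaarMeasure :=
    Measure.pi.isAddHaarMeasure _
  let e := MeasurableEquiv.piEquivPiSubtypeProd (fun _ : Fin n => Fin k → Fin k → ℝ)
    (fun i => i ∉ big)
  have he : MeasurePreserving e volume
      ((Measure.pi fun _ => volume).prod (Measure.pi fun _ => volume)) :=
    measurePreserving_piEquivPiSubtypeProd (fun _ : Fin n => volume) _
  let G : ({i // i ∉ big} → Fin k → Fin k → ℝ) → {i // ¬ i ∉ big} → Fin k → Fin k → ℝ :=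
    fun a i => f i (fun j => if h : j ∉ big then a ⟨j, h⟩ else 0)
  have hG : Continuous G := continuous_pi fun i => (hf i).comp <| continuous_pi fun j => by
    by_cases h : j ∉ big
    · simpa [dif_pos h] using continuous_apply _
    · simpa [dif_neg h] using continuous_const
  have hT : MeasurePreserving (fun p : ({i // i ∉ big} → Fin k → Fin k → ℝ) ×
      ({i // ¬ i ∉ big} → Fin k → Fin k → ℝ) => (id p.1, p.2 - G p.1))
      ((Measure.pi fun _ => volume).prod (Measure.pi fun _ => volume))
      ((Measure.pi fun _ => volume).prod (Measure.pi fun _ => volume)) :=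
    MeasurePreserving.skew_product (g := fun a b => b - G a) (MeasurePreserving.id _)
      (measurable_snd.sub (hG.measurable.comp measurable_fst))
      (Filter.Eventually.of_forall fun a =>
        (measurePreserving_sub_right (Measure.pi fun _ => volume) (G a)).map_eq)
  have h := (MeasurePreserving.symm e he).comp (hT.comp he)
  have hfun : (fun (x : Fin n → Fin k → Fin k → ℝ) i => if i ∈ big then x i - f i x else x i)
      = e.symm ∘ (fun p => (id p.1, p.2 - G p.1)) ∘ e := by
    funext x i
    by_cases hi : i ∈ big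
    · simp [e, G, hi, MeasurableEquiv.piEquivPiSubtypeProd, Equiv.piEquivPiSubtypeProd]
      exact hdep i hi _ _ fun j hj => by simp_all
    · simp [e, hi, MeasurableEquiv.piEquivPiSubtypeProd, Equiv.piEquivPiSubtypeProd]
  rw [hfun]
  exact h

end Vale.Agent.P087.ChiUpper
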